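import Vale.Agent.P283B.Spec
import Vale.Agent.P287D.Api.Int
import Vale.Agent.P287D.Pc.Ns
import Vale.Agent.P287D.Mm.Run
import Vale.Agent.P287D.Mm.Mft

/-!
# P283B: general members, extractions and programs on varieties of Fano type
-/

set_option linter.unusedVariables false

open Set

noncomputable section

namespace Vale.Agent.P283B

open P287D P287D.Mm

namespace Tl

variable {K : Type} [Field K] [Algebra ℂ K] {n : ℕ} {Λ Ω L X Y N F D H Γ β ν : BD K}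
  {U : Submodule ℝ (BD K)} {Φ : BD K →ₗ[ℝ] BD K} {s₀ : Finset K}

/-- nef and big classes lie below the moving part -/
theorem zd_le_nef (hK : FF K n) (z : ZD X N) (hY : Nef Y) (bY : Big Y) (h0 : 0 ≤ F)
    (e : X = Y + F) : N ≤ F := by
  rw [← z.sig_eq, e]
  simpa [Ba.Fg.sig_nb hK hY bY] using sig_add_nonneg bY.eff h0

/-- the fixed part is constant along the classes of the model -/
theorem zd_add (z : ZD X N) (d : Dsc (X - N) H) (hH : Smp H) {t : ℝ} (ht : 0 ≤ t) :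
    ZD (X + t • H) N := by
  refine ⟨z.nn, add_sub_right_comm X _ N ▸ z.smp.add (hH.smul ht), fun G r Q => ?_⟩
  obtain ⟨η, e, k⟩ := d.exists_sub
  obtain ⟨G', r', g⟩ := k.rep_at Q
  have a := (Gs.zd_smul z (add_pos_of_nonneg_of_pos ht e)).fix _
    ((((r'.add (.refl z.nn)).smul ht).add (r.smul e.le)).congr
      (by rw [show _ - _ = (0 : BD K) by module]; exact zero_mem _)) Q
  simp only [Pi.add_apply, Pi.smul_apply, smul_eq_mul, g] at a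
  nlinarith

/-- numerically trivial classes descend to the ample model of an adjoint class -/
theorem dsc_num (hK : FF K (n + 1)) (bΩ : Big Ω) (ad : Adw n Ω D) (z : ZD D N) (b : Big (D - N))
    (hν : Num ν) (d : Dsc Ω ν) : Dsc (D - N) ν := by
  have key : ∀ ν, Num ν → Dsc Ω ν → Smp (D - N + ν) := fun ν hν d => by
    obtain ⟨dD, Γ, c, k, bd, h1, h2⟩ := ad
    have e : D + ν - Γ = D - Γ + ν := by abel
    have bD : Big (D + ν) := (b.mono (sub_le_self _ z.nn)).add_nef hν.1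
    have z' := Ba.Fg.abund hK bΩ (dD.add d) c k bd (e ▸ h1.add hν.1) (e ▸ h2.add_nef hν.1) bD.psef
    have a1 : sig (D + ν) ≤ N :=
      zd_le_nef hK z' (z.smp.nef.add hν.1) (b.add_nef hν.1) z.nn (by abel)
    have a2 : N ≤ sig (D + ν) := zd_le_nef hK z (z'.smp.nef.add hν.2)
      ((Gs.zd_big Api.neg hK z' bD).add_nef hν.2) z'.nn (by abel)
    have := z'.smp
    rwa [le_antisymm a1 a2, add_sub_right_comm] at this
  exact ⟨1, one_pos, by simpa using key ν hν d, by simpa [sub_eq_add_neg] using key _ hν.neg d.neg⟩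

/-- `U` contains all numerical classes of `V Ω` -/
def Fs (Ω : BD K) (U : Submodule ℝ (BD K)) : Prop := ∀ β, Dsc Ω β → ∃ γ ∈ U, Num (β - γ)

theorem exists_fs (hK : FF K n) (hΩ : Smp Ω) (hb : Big Ω) {S : Set (BD K)} (hS : S.Finite)
    (h : ∀ β ∈ S, Dsc Ω β) : ∃ U, Sp Ω U ∧ S ⊆ U ∧ Fs Ω U := by
  obtain ⟨T, a, b⟩ := Pc.fin hK hΩ
  obtain ⟨U, u, v⟩ := exists_sp hΩ hb (hS.union T.finite_toSet) fun β k => k.elim (h β) (a β)
  exact ⟨U, u, subset_union_left.trans v, fun β d =>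
    let ⟨γ, x, y⟩ := b β d
    ⟨γ, Submodule.span_le.2 (subset_union_right.trans v) x, y⟩⟩

section chm

variable (hK : FF K (n + 1)) (u : Sp Ω U) (f : Fs Ω U) (ad : Adw n Ω D) (c : Chm n Ω U Φ D)
include hK u f ad c

theorem chm_push (d : Dsc Ω β) : ∃ γ ∈ U, ∃ ν, Num ν ∧ Dsc (Φ D) ν ∧ Hull n (Φ D) β (Φ γ + ν) := by
  obtain ⟨γ, a, b⟩ := f β d
  have k := dsc_num hK u.big ad c.zd (by simpa using c.big) b (d.sub (u.des a))
  rw [sub_sub_cancel] at k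
  exact ⟨γ, a, _, b, k, ((c.hull a).add (.self k)).congr fun P _ => by simp⟩

theorem chm_qf (q : QF n Ω) : QF n (Φ D) := fun P hP => by
  obtain ⟨v, -, hv⟩ := q P ((c.on P).1 hP).1
  obtain ⟨γ, -, ν, -, -, k⟩ := chm_push hK u f ad c hv.1
  have w := k.congr fun Q o => hv.2 Q ((c.on Q).1 o).1
  refine ⟨_, Gs.carQ_of Api.neg hK c.smp c.big k.1 fun Q o => ?_, w⟩
  rw [w.2 Q o]
  by_cases x : Q = P
  · exact ⟨1, by simp [x, Pl.δ_self]⟩
  · exact ⟨0, by simp [Pl.δ_ne x]⟩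

theorem chm_onto (q : QF n Ω) (d : Dsc (Φ D) β) :
    ∃ γ ∈ U, ∃ ν, Num ν ∧ Dsc (Φ D) ν ∧ β = Φ γ + ν := by
  obtain ⟨v, hv⟩ := Gs.exists_hull Api.neg hK u.smp q
    (Gs.isb_fin hK Api.neg u.smp u.big ((Api.mod.isb n K hK).1 β d.car))
  obtain ⟨γ, a, ν, b, e, k⟩ := chm_push hK u f ad c hv.1
  exact ⟨γ, a, ν, b, e, hull_eq Api.neg hK c.big (.self d)
    (k.congr fun Q o => hv.2 Q ((c.on Q).1 o).1)⟩

end chm

/-- **good minimal models are `ℚ`-factorial** -/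
theorem minq (hK : FF K (n + 1)) (hΩ : Smp Ω) (bΩ : Big Ω) (q : QF n Ω) (hD : CarQ D)
    (ad : Adw n Ω D) (p : Psef D) : ∃ L N, ZD D N ∧ CarQ N ∧ Smp L ∧ Big L ∧ QF n L ∧
      Dsc L (D - N) ∧ ∀ P, On n L P ↔ On n Ω P ∧ N P = 0 := by
  obtain ⟨U, u, sub, f⟩ := exists_fs hK hΩ bΩ (toFinite {D, Ω}) (by simp [ad.1, Dsc.refl hΩ])
  have uD : D ∈ U := sub (by simp)
  obtain ⟨A, uA, a1, -, Φ, z, δ, d0, c⟩ :=
    min' Api.ma n K hK Ω D Ω U u uD (sub (by simp)) (.refl hΩ) hD ad p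
  have c1 := c δ d0 le_rfl
  have c2 := c _ (half_pos d0) (half_le_self d0.le)
  have a2 := a1.smul (half_pos d0)
  refine ⟨_, _, z, hD.sub (c1.rat D uD hD), c2.smp, c2.big, chm_qf hK u f ?_ c2 q,
    by simpa using c2.des D uD, fun P => ?_⟩
  · obtain ⟨dD, Γ, g1, g2, g3, g4, g5⟩ := ad
    exact ⟨dD.add a2.1, Γ, g1, g2, g3, add_sub_right_comm D _ Γ ▸ g4.add a2.nef,
      add_sub_right_comm D _ Γ ▸ g5.add_nef a2.nef⟩
  · have x := c1.le P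
    have y := c1.nef A uA a1.nef P
    rw [c2.on]
    simp only [map_add, map_smul, Pi.add_apply, Pi.smul_apply, Pi.sub_apply, smul_eq_mul] at x ⊢
    exact and_congr_right fun _ => ⟨fun e => by nlinarith, fun e => by nlinarith⟩

/-- log resolutions which contain all exceptional primes -/
theorem exists_lsx (hK : FF K (n + 1)) (hΛ : Smp Λ) (bΛ : Big Λ) {T₀ : Set (Pl K)}
    (hT : T₀.Finite) {B : Set (BD K)} (hB : B.Finite) (hc : ∀ β ∈ B, β ∈ Car K) :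
    ∃ (s : Finset K) (κ : BD K) (T : Finset (Pl K)) (h : Pl K → BD K), LS n (mx s) κ T h ∧
      (∀ P ∈ T₀, P ∈ T) ∧ Sup n (mx s) T κ ∧ (∀ β ∈ B, Sup n (mx s) T β) ∧ Dsc (mx s) Λ ∧
      ∀ P, On n (mx s) P → On n Λ P ∨ P ∈ T := by
  obtain ⟨s₁, κ₁, T₁, h₁, l₁, -⟩ := exists_ls hK finite_empty finite_empty (by simp)
  obtain ⟨s, κ, T, h, l, a, b, c⟩ := exists_ls hK
    (hT.union (Api.mod.exc n K hK _ Λ l₁.smp l₁.big hΛ bΛ)) ((hB.insert Λ).insert κ₁)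
    (forall_mem_insert.2 ⟨CarZ.car l₁.kz, forall_mem_insert.2 ⟨hΛ.car, hc⟩⟩)
  refine ⟨s, κ, T, h, l, fun P p => a P (.inl p), b, fun β p => c β (.inr (.inr p)),
    (c Λ (by simp)).1, fun P o => by_contra fun k => ?_⟩
  rw [not_or] at k
  have x := l₁.one P fun w => k.2 (a P (.inr ⟨w, k.1⟩))
  have y := l.d0 o
  simp only [dsc, Pi.sub_apply, b.2 P o k.2, (c κ₁ (by simp)).2 P o k.2] at x y
  linarith

/-- the adjoint class whose minimal model is the extraction -/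
theorem exists_xt (hK : FF K (n + 1)) (hΛ : Smp Λ) (bΛ : Big Λ) {c : ℝ} (h1 : Nef (c • Λ - Γ))
    (bd : Bdy n Λ Γ) (k : Klt (n + 1) Γ) {T : Set (Pl K)} (hT : T.Finite)
    (h2 : ∀ P ∈ T, ld (n + 1) Γ P ≤ 1) (hβ : β ∈ Car K) : ∃ Ω D E, Smp Ω ∧ Big Ω ∧ QF n Ω ∧
      Dsc Ω β ∧ CarQ D ∧ Adw n Ω D ∧ ZD D E ∧ AmpOn Λ (D - E) ∧
      ∀ P, On n Ω P ∧ E P = 0 ↔ On n Λ P ∨ P ∈ T := by
  classical
  have cΓ : Γ ∈ Car K := by simpa using sub_mem ((Car K).smul_mem c hΛ.car) h1.car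
  obtain ⟨s, κ, T', h, l, a1, a2, a3, a4, a5⟩ :=
    exists_lsx hK hΛ bΛ hT (toFinite {Γ, β}) (by simp [cΓ, hβ])
  choose r r1 r2 using fun P => exists_rat_btwn
    (max_lt (lt_add_one (dsc (n + 1) Γ P)) (neg_lt_iff_pos_add.1 (k P)))
  let e : Pl K → ℚ := fun P => if On n Λ P ∨ P ∈ T then 0 else r P
  have e0 : ∀ P, (0 : ℝ) ≤ e P := fun P => by
    simp only [e]
    split_ifs
    exacts [by simp, ((le_max_right _ _).trans (r1 P).le)]
  obtain ⟨dE, eE⟩ := l.hull_sum fun P => e P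
  have qE : CarQ (∑ P ∈ T', (e P : ℝ) • h P) :=
    CarQ.sum _ fun P _ => (CarZ.carQ (l.hz P)).qsmul _
  have E0 : 0 ≤ ∑ P ∈ T', (e P : ℝ) • h P :=
    Finset.sum_nonneg fun P p => smul_nonneg (e0 P) (l.nn (l.on P p))
  generalize ∑ P ∈ T', (e P : ℝ) • h P = E at dE eE qE E0
  have up : ∀ P, On n Λ P ∨ P ∈ T → On n (mx s) P := fun P p =>
    p.elim (on_mono res' hK hΛ a4) fun p => l.on P (a1 P p)
  have z : ∀ P, On n Λ P ∨ P ∈ T → E P = 0 := fun P p => by simp [eE P (up P p), e, p]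
  have z' : ∀ P, On n (mx s) P → ¬ (On n Λ P ∨ P ∈ T) → E P = r P := fun P o p => by
    simp only [eE P o, e, if_neg p, if_pos ((a5 P o).resolve_left fun w => p (.inl w))]
  obtain ⟨t, -, ht⟩ := hΛ.exists_ampOn
  obtain ⟨c₀, c0, hc⟩ := ht.exists_large ((Dsc.refl hΛ).smul c).neg
  obtain ⟨m, hm⟩ := exists_rat_gt c₀
  have am := hc _ hm.le
  have am' := ht.smul (c0.trans hm)
  have qt := (carQ_mx t).qsmul m
  generalize (m : ℝ) • mx t = A at am am' qt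
  have q : A + E - (Γ + E) = c • Λ - Γ + (-(c • Λ) + A) := by abel
  refine ⟨mx s, A + E, E, l.smp, l.big, l.qf, (a3 β (by simp)).1, qt.add qE,
    ⟨(a4.trans am'.1).add dE, Γ + E, add_mem cΓ dE.car, fun Q => ?_, fun P o => ?_,
      q ▸ h1.add am.nef, q ▸ h1.psef.add_big (am.big_iff.1 bΛ)⟩,
    ⟨E0, by simpa using am'.smp, fun G g => sub_nonneg.1 (Gs.det Api.neg hK hΛ bΛ
      (am'.1.congr (by simpa only [sub_sub, add_comm] using g.2)) fun P o => ?_)⟩,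
    by simpa using am', fun P => ⟨fun p => by_contra fun w => ?_, fun p => ⟨up P p, z P p⟩⟩⟩
  · have := l.gt (Q := Q) (Γ := Γ + E) (sub_sub κ Γ E ▸ (a2.sub (a3 Γ (by simp))).sub
      ⟨dE, fun P o p => by rw [eE P o, if_neg p]⟩) le_rfl one_pos fun P p _ => by
        rw [Pr.dsc_add]
        by_cases w : On n Λ P ∨ P ∈ T
        · linarith [z P w, k P]
        · linarith [z' P (l.on P p) w, r2 P]
    linarith
  · rw [Pr.dsc_add]
    by_cases w : On n Λ P ∨ P ∈ T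
    · have := w.elim (bd P) fun p => add_le_iff_nonpos_left.1 (h2 P p)
      linarith [z P w]
    · linarith [z' P o w, (le_max_left _ _).trans_lt (r1 P)]
  · simpa [z P (.inl o)] using g.1 P
  · linarith [z' P p.1 w, (le_max_right _ _).trans_lt (r1 P), p.2]

/-- numerically trivial classes descend to varieties of klt type -/
theorem num_dsc (hK : FF K (n + 1)) (hΛ : Smp Λ) (bΛ : Big Λ) {c : ℝ} (h1 : Nef (c • Λ - Γ))
    (bd : Bdy n Λ Γ) (k : Klt (n + 1) Γ) (hν : Num ν) : Dsc Λ ν :=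
  let ⟨_, _, _, _, b, _, d, _, ad, z, a, _⟩ :=
    exists_xt hK hΛ bΛ h1 bd k finite_empty (by simp) hν.car
  a.1.trans (dsc_num hK b ad z (a.big_iff.1 bΛ) hν d)

theorem fto_mono (f : FTo n Λ s₀) (hL : Smp L) (bL : Big L) (d : Dsc L (mx s₀))
    (o : ∀ P, On n L P → On n Λ P) : FTo n L s₀ :=
  let ⟨Γ, c, a, b, e⟩ := f.ex
  ⟨hL, bL, d, Γ, c, a, fun P p => b P (o P p), e⟩

/-- small multiples of a class are adjoint over the base -/
theorem fto_adj (hK : FF K (n + 1)) (f : FTo n Λ s₀) (hD : D ∈ Car K) :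
    ∃ (ε : ℚ) (c : ℝ) (Γ : BD K), 0 < (ε : ℝ) ∧ Γ ∈ Car K ∧ Klt (n + 1) Γ ∧ Bdy n Λ Γ ∧
      Smp ((ε : ℝ) • D + c • mx s₀ - Γ) ∧ Big ((ε : ℝ) • D + c • mx s₀ - Γ) := by
  obtain ⟨Γ, c, a, b, e1, e2⟩ := f.ex
  have cΓ : Γ ∈ Car K := by simpa using sub_mem ((Car K).smul_mem c (mx_mem_Car s₀)) e1.car
  obtain ⟨E, cE, E0, k, s, g, d⟩ := Ba.Fg.kod hK cΓ a e1 e2 (β := fun _ : Unit => D) fun _ => hD
  obtain ⟨η, η0, h⟩ := (AmpOn.refl s).opn (d ())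
  obtain ⟨ε, x, y⟩ := exists_rat_btwn η0
  have m := h ε ((abs_of_pos x).trans_le y.le)
  rw [show c • mx s₀ - Γ - E + (ε : ℝ) • D = (ε : ℝ) • D + c • mx s₀ - (Γ + E) by abel] at m
  refine ⟨ε, c, Γ + E, x, add_mem cΓ cE, k, fun P o => ?_, m.smp, m.big_iff.1 g⟩
  rw [Pr.dsc_add]
  exact sub_nonpos.2 ((b P o).trans (E0 P))

end Tl

open Tl

theorem bert : BERT := fun n K _ _ hK Λ Ω Γ s T hΛ bΛ hΩ hΓ hs hT => by
  classical
  obtain ⟨t, κ, T₁, Y, T', h, g, l, a1, a2, a3, a4, a5, g1, g0, g2, g3⟩ :=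
    Pr.ber1 hK hT (toFinite {Λ, Ω, Γ}) (by simp [hΛ.car, hΩ.car, hΓ]) hs
  have u := a4.sub (a5 Γ (by simp))
  have z : ∀ P ∈ T₁, (dv g + mx s) P = 0 := fun P p =>
    g2.2 P (l.on P ((a1 P).2 (.inl p))) (Finset.disjoint_left.1 a2 p)
  have y : ∀ P ∈ Y, ld (n + 1) Γ P = 1 := fun P p => by
    have o := l.on P ((a1 P).2 (.inr p))
    have x := u.2 P o (Finset.disjoint_right.1 a2 p)
    have w := l.d0 o
    simp only [ld, dsc, Pi.sub_apply] at x w ⊢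
    linarith
  refine ⟨g, g1, g0, fun P p => z P (a3 P p), fun P o => ?_, fun r P r0 r1 k => ?_⟩
  · by_cases p : P ∈ Y
    · exact .inr ⟨g3 P p, y P p⟩
    · exact .inl (g2.2 P (on_mono res' hK hΛ (a5 Λ (by simp)).1 o) p)
  · obtain ⟨P', p1, p2⟩ := (insert P (T₁.filter (0 < h · P))).exists_min_image (ld (n + 1) Γ)
      (Finset.insert_nonempty _ _)
    have c : CLe Ω P P' := by
      rcases Finset.mem_insert.1 p1 with rfl | w
      · exact .refl _ _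
      · obtain ⟨w1, w2⟩ := Finset.mem_filter.1 w
        exact l.cle (l.on _ ((a1 _).2 (.inl w1))) w2 (a5 Ω (by simp)).1
    refine ⟨P', c, l.ge (Γ := Γ + r • (dv g + mx s)) (sub_sub κ Γ _ ▸
      (u.mono fun P p => (a1 P).2 (.inl p)).sub ((g2.mono fun P p => (a1 P).2 (.inr p)).smul r))
      (le_min (k P' c) (sub_nonneg.2 r1)) ((min_le_right _ _).trans (sub_le_self _ r0))
      fun R p w => ?_⟩
    rw [Pr.dsc_add_smul]
    rcases (a1 R).1 p with p | p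
    · have := p2 R (Finset.mem_insert_of_mem (Finset.mem_filter.2 ⟨p, w⟩))
      rw [z R p, mul_zero, sub_zero]
      exact (min_le_left _ _).trans this
    · have := y R p
      rw [g3 R p]
      simp only [ld] at this
      linarith [min_le_right (ld (n + 1) Γ P') (1 - r)]

theorem extr : EXTR := fun n K _ _ hK Λ Γ c T hΛ bΛ h1 bd k hT h2 => by
  obtain ⟨Ω, D, E, a1, a2, a3, -, a4, a5, z, a6, a7⟩ :=
    exists_xt hK hΛ bΛ h1 bd k hT h2 (zero_mem _)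
  obtain ⟨L, N, z', -, b1, b2, b3, b4, b5⟩ := minq hK a1 a2 a3 a4 a5 (Ge.zd_eff z).psef
  obtain rfl : N = E := Gs.zd_uniq Api.neg hK z' z
  exact ⟨L, b1, b2, b3, b4.trans a6.dsc', fun P => (b5 P).trans (a7 P)⟩

theorem ftm0 : FTM0 := fun n K _ _ hK Λ D s₀ c f q d hD p => by
  obtain ⟨ε, c₀, Γ, e0, g1, g2, g3, g4, g5⟩ := fto_adj hK f d.car
  obtain ⟨m, hm⟩ := exists_rat_gt (max (c₀ + (n + 2)) (ε * c))
  obtain ⟨m1, m2⟩ := max_lt_iff.1 hm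
  have sH : ∀ {t : ℝ}, 0 ≤ t → Smp (t • mx s₀) := (smp_mx s₀).smul
  have n0 : (0 : ℝ) ≤ n + 2 := by positivity
  have e1 : (ε : ℝ) • D + (m : ℝ) • mx s₀ - Γ =
    (ε : ℝ) • D + c₀ • mx s₀ - Γ + (m - c₀) • mx s₀ := by module
  have e2 : (ε : ℝ) • D + (m : ℝ) • mx s₀ - Γ - (n + 2 : ℝ) • mx s₀ =
    (ε : ℝ) • D + c₀ • mx s₀ - Γ + (m - (c₀ + (n + 2))) • mx s₀ := by module
  have e3 : (ε : ℝ) • D + (m : ℝ) • mx s₀ =
    (ε : ℝ) • (D + c • mx s₀) + (m - ε * c) • mx s₀ := by module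
  have qX := (hD.qsmul ε).add ((carQ_mx s₀).qsmul m)
  have dX := (d.smul ε).add (f.des.smul m)
  obtain ⟨L, N, z, qN, b1, b2, b3, b4, b5⟩ := minq hK f.smp f.big q qX
    ⟨dX, Γ, g1, g2, g3, e1 ▸ (g4.add (sH (by linarith))).nef, e1 ▸ g5.add_smp (sH (by linarith))⟩
    (e3 ▸ (p.smul e0.le).add (sH (by linarith)).psef)
  have r := Api.rel n K hK Λ _ Γ N s₀ f.smp f.big qX dX g1 g2 g3 f.des
    (e2 ▸ (g4.add (sH (by linarith))).nef) (e2 ▸ g5.add_smp (sH (by linarith))) z qN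
  have i0 := inv_pos.2 e0
  have dH := b4.trans r
  refine ⟨L, D - (ε : ℝ)⁻¹ • N, (ε : ℝ)⁻¹ * m, fto_mono f b1 b2 dH fun P o => ((b5 P).1 o).1, b3,
    ⟨?_, fun P o => by simp [((b5 P).1 o).2]⟩, hD.sub (by simpa using qN.qsmul ε⁻¹),
    fun P => (b5 P).trans (by simp [e0.ne']), fun e he => ?_⟩
  · convert (b4.sub (dH.smul m)).smul (ε : ℝ)⁻¹ using 1
    rw [sub_right_comm, add_sub_cancel_right, smul_sub, inv_smul_smul₀ e0.ne']
  · have t0 : 0 ≤ ε * e - m := sub_nonneg.2 ((inv_mul_le_iff₀ e0).1 he)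
    have x : D + e • mx s₀ = (ε : ℝ)⁻¹ • ((ε : ℝ) • D + (m : ℝ) • mx s₀ + (ε * e - m) • mx s₀) := by
      rw [add_assoc, ← add_smul, add_sub_cancel, mul_smul, ← smul_add, inv_smul_smul₀ e0.ne']
    refine ⟨?_, ?_⟩
    · rw [sub_sub_cancel, x]
      exact Gs.zd_smul (zd_add z r (smp_mx s₀) t0) i0
    · rw [sub_add_eq_add_sub, x, ← smul_sub, add_sub_right_comm]
      exact (r.add_left (sH t0)).smul_left i0

theorem ftm1 : FTM1 := fun n K _ _ hK Λ D s₀ f q d hD p => by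
  obtain ⟨ε, c₀, Γ₁, e0, g1, g2, g3, g4, -⟩ := fto_adj hK f d.car
  obtain ⟨G, r, -, k⟩ := Pr.ber_klt hK finite_empty g1 g2 g4
  obtain ⟨Γ, hΓ⟩ : ∃ Γ, Γ = (ε : ℝ) • D + c₀ • mx s₀ := ⟨_, rfl⟩
  rw [← hΓ] at r
  have pr : Γ₁ + G - Γ ∈ Prn K := by simpa only [sub_sub_eq_add_sub, add_comm] using r.2
  have dΓ : Dsc Λ Γ := hΓ ▸ (d.smul _).add (f.des.smul _)
  have bd : Bdy n Λ (Γ₁ + G) := fun P o => by
    rw [Pr.dsc_add]
    exact sub_nonpos.2 ((g3 P o).trans (r.1 P))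
  generalize Γ₁ + G = Γ' at k pr bd
  have am : ∀ A, AmpOn Λ A → AmpOn Λ (Γ + A - Γ') := fun A a =>
    a.congr (by simpa [sub_right_comm _ Γ'] using neg_mem pr)
  obtain ⟨η, η0, np⟩ := not_psef (β := Γ + (n + 2 : ℝ) • mx s₀) (fun x =>
    p ((ε : ℝ)⁻¹ * (c₀ + (n + 2))) (.of_smul e0 (x.mono (le_of_eq (by
      rw [hΓ, smul_add, smul_smul, mul_inv_cancel_left₀ e0.ne', add_smul c₀, add_assoc])))))
    f.smp f.big
  obtain ⟨U, u, sub, fs⟩ := exists_fs hK f.smp f.big (toFinite {D, mx s₀, Λ})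
    (by simp [d, f.des, Dsc.refl f.smp])
  have uD : D ∈ U := sub (by simp)
  have uH : mx s₀ ∈ U := sub (by simp)
  have uΛ : Λ ∈ U := sub (by simp)
  have uΓ : Γ ∈ U := hΓ ▸ add_mem (U.smul_mem _ uD) (U.smul_mem _ uH)
  obtain ⟨A, uA, a1, -, τ, δ, x, Φ, t0, d0, hx, c, wl, nb, bs⟩ :=
    end' Api.ma n K hK Λ Γ Λ ((η / 2) • Λ) U s₀ (n + 2) u uΓ uΛ (U.smul_mem _ uΛ) uH
      (f.smp.ampOn_smul (half_pos η0)) (fun A a => ⟨Γ', dΓ.congr pr, k, bd, am A a⟩) f.smp f.big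
      le_rfl fun c => np η le_rfl (c.mono (le_of_eq (by module)))
  have ux : x ∈ U := hx ▸ add_mem (add_mem (add_mem uΓ uA) (U.smul_mem _ uΛ)) (U.smul_mem _ uH)
  have aH : AmpOn Λ ((1 + δ) • (A + τ • Λ + (n + 2 : ℝ) • mx s₀)) :=
    ((a1.add (f.smp.ampOn_smul t0)).add_smp ((smp_mx s₀).smul (by positivity))
      (f.des.smul _)).smul (by positivity)
  have eD : x + δ • (x - Γ) = Γ + (1 + δ) • (A + τ • Λ + (n + 2 : ℝ) • mx s₀) := by
    rw [hx]; module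
  have ad : Adw n Λ (x + δ • (x - Γ)) := eD ▸ ⟨dΓ.add aH.1, Γ', (dΓ.congr pr).car, k, bd,
    (am _ aH).nef, (am _ aH).big_iff.1 f.big⟩
  have le : Φ Γ ≤ Γ := by
    have := c.pair_le (c := 1) uΓ (by rw [eD]; simpa using aH.nef)
    rw [one_smul, one_smul] at this
    exact this.trans (sub_le_self _ (sub_nonneg.2 c.le))
  have dB := c.des x ux
  have dH := dB.trans bs
  have eΓ : Φ Γ = (ε : ℝ) • Φ D + c₀ • mx s₀ := by
    rw [hΓ, map_add, map_smul, map_smul, c.fix _ uH dH]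
  have aL : AmpOn (Φ (x + δ • (x - Γ))) ((δ⁻¹ + 1) • Φ x - Φ Γ) := by
    rw [show (δ⁻¹ + 1) • Φ x - Φ Γ = δ⁻¹ • Φ (x + δ • (x - Γ)) by
      rw [map_add, map_smul, map_sub, smul_add, smul_smul, inv_mul_cancel₀ d0.ne']
      module]
    exact c.smp.ampOn_smul (inv_pos.2 d0)
  have qf := chm_qf hK u fs ad c q
  have ont := fun β => chm_onto (β := β) hK u fs ad c q
  have hΓ' := c.hull uΓ
  have hl := c.hull uD
  have on : ∀ P, On n (Φ (x + δ • (x - Γ))) P → On n Λ P := fun P o => ((c.on P).1 o).1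
  have sL := c.smp
  have bL := c.big
  generalize Φ (x + δ • (x - Γ)) = L at aL dB dH qf ont hΓ' hl on sL bL
  obtain ⟨s₁, -, hs⟩ := bs.smp.exists_ampOn
  have d1 := dB.trans hs.1
  have lg : ∀ β, Dsc (Φ x) β → ∃ m : ℝ, AmpOn L ((δ⁻¹ + 1) • Φ x - Φ Γ + (β + m • mx s₁)) :=
    fun β b =>
      let ⟨m, _, h⟩ := hs.exists_large b
      ⟨m, aL.add_smp (h m le_rfl).smp (dB.trans (h m le_rfl).1)⟩
  have k' : Klt (n + 1) (Φ Γ + (Γ' - Γ)) := fun P => by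
    have a := k P
    have b := le P
    simp only [dsc, Pi.sub_apply, Pi.add_apply] at a ⊢
    linarith
  have bd' : Bdy n L (Φ Γ + (Γ' - Γ)) := fun P o => by
    have a := bd P (on P o)
    simp only [dsc, Pi.sub_apply, Pi.add_apply, hΓ'.2 P o] at a ⊢
    linarith
  have am' : ∀ {X}, AmpOn L (X - Φ Γ) → AmpOn L (X - (Φ Γ + (Γ' - Γ))) := fun a =>
    a.congr (by simpa [← sub_sub] using neg_mem pr)
  obtain ⟨m₁, h₁⟩ := lg _ ((Dsc.refl bs.smp).smul (δ⁻¹ + 1)).neg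
  rw [show (δ⁻¹ + 1) • Φ x - Φ Γ + (-((δ⁻¹ + 1) • Φ x) + m₁ • mx s₁) = m₁ • mx s₁ - Φ Γ by abel]
    at h₁
  obtain ⟨m₂, h₂⟩ := lg _ ((bs.smul c₀).sub ((Dsc.refl bs.smp).smul (δ⁻¹ + 1)))
  refine ⟨L, Φ D, s₁, (ε : ℝ)⁻¹ * m₂, fto_mono f sL bL dH on,
    ⟨sL, bL, d1, _, m₁, k', bd', (am' h₁).nef, (am' h₁).big_iff.1 bL⟩, qf, hl, c.rat D uD hD,
    ?_, on, hs.dsc'.trans bs, fun b => nb (hs.big_iff.2 b), ?_, fun β b => ?_⟩
  · rw [eΓ, hΓ, add_le_add_iff_right] at le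
    exact le_of_smul_le_smul_left le e0
  · convert h₂.smul (inv_pos.2 e0) using 1
    rw [eΓ, mul_smul, ← inv_smul_smul₀ e0.ne' (Φ D), ← smul_sub, inv_smul_smul₀ e0.ne' (Φ D)]
    exact congrArg _ (by abel)
  · obtain ⟨γ, uγ, ν, hν, dν, rfl⟩ := ont β b
    obtain ⟨a, ha⟩ := wl.rk γ uγ
    have z := (Api.klk n K hK (Φ x) L _ _ bs.smp sL bL (hΓ'.1.add_prn pr) dB bd' k' (am' aL).nef
      ((am' aL).big_iff.1 bL) ν dν hν.1).1 0 (by simpa using hν.2)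
    refine ⟨a * ε, hs.dsc'.trans ?_⟩
    convert (ha.add z).add (bs.smul (a * c₀)) using 1
    rw [eΓ]
    module

end Vale.Agent.P283B
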